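import Vale.Agent.BlochHeis.Asym

open Filter

namespace Vale.Agent.Results.P361.OneSidedBloch

open Vale.Agent.BlochHeis

/-- For every spin `S = k / 2`: the pressure is convex in the field, the spontaneous magnetisation
is its right derivative at zero field, and
`liminf β^(3/2) (S - m_S(β)) ≥ ζ(3/2) / (8 π^(3/2) S^(3/2))` as `β → ∞`. -/
theorem result (k : ℕ) (hk : 0 < k) (S : Fin 3 → Matrix (Fin (k + 1)) (Fin (k + 1)) ℂ)
    (hS : IsSpin k S) :
    (∀ β : ℝ, 0 < β → ConvexOn ℝ Set.univ (fun h => pressure S β h) ∧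
      HasDerivWithinAt (fun h => pressure S β h) (spontMag S β) (Set.Ioi 0) 0) ∧
    ∀ ε : ℝ, 0 < ε → ∀ᶠ β : ℝ in atTop,
      (riemannZeta (3 / 2)).re / (8 * Real.pi ^ (3 / 2 : ℝ) * ((k : ℝ) / 2) ^ (3 / 2 : ℝ)) - ε
        ≤ β ^ (3 / 2 : ℝ) * ((k : ℝ) / 2 - spontMag S β) := by
  have hs : (0 : ℝ) < (k : ℝ) / 2 := by positivity
  refine ⟨fun β hβ => ⟨pressure_convex hS hk β hβ, ?_⟩, ?_⟩
  · have := (pressure_convex hS hk β hβ).hasDerivWithinAt_rightDeriv_of_mem_interior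
      (x := 0) (by simp)
    exact this
  · exact bloch_of_key ((k : ℝ) / 2) hs (fun β => spontMag S β)
      (fun β m hβ hm hlt J => key_ineq hS hk β hβ m hm hlt J)

end Vale.Agent.Results.P361.OneSidedBloch
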